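import Vale.Agent.P207.C1.Hinge
import Vale.Agent.P207.N3.H465.HadI

/-!
# P207, line N3, R5': closed manifolds of negative curvature satisfy the hinge comparison, and
their universal covers are spaces of curvature `≤ -k²` in the sense of `Had`
-/

open scoped Manifold ContDiff ENNReal Topology unitInterval
open Bundle MeasureTheory Set Filter

noncomputable section

namespace Vale.Agent.P207.N3.H156

open Vale.Agent.P207 Vale.Agent.P207.C1
open Vale.Agent.P255 (RMetric coefIn Gam Riem IsGeo Metric Npc ExpSys toMetric geo expg cc)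

variable {n : ℕ} {M : Type} [TopologicalSpace M] [ChartedSpace (EV n) M]
  [IsManifold 𝓘(ℝ, EV n) ∞ M] [CompactSpace M] [T2Space M]

/-- **R5'.** The hinge comparison with a positive constant. -/
theorem exists_HC {g : RMetric (EV n) M} (h : NegCurvature g) :
    ∃ k : ℝ, 0 < k ∧ HC (sys g (npc_of_neg h)) k := by
  obtain ⟨k, hk, hg⟩ := exists_curvLE_of_neg h
  exact ⟨k, hk, fun α β hα hβ => hinge_cl hk hg α β hα hβ⟩

/-- the constant of the comparison -/
def kk {g : RMetric (EV n) M} (h : NegCurvature g) : ℝ := (exists_HC h).choose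

theorem kk_pos {g : RMetric (EV n) M} (h : NegCurvature g) : 0 < kk h :=
  (exists_HC h).choose_spec.1

theorem hc_kk {g : RMetric (EV n) M} (h : NegCurvature g) : HC (sys g (npc_of_neg h)) (kk h) :=
  (exists_HC h).choose_spec.2

/-- the universal cover of a closed manifold of negative curvature as a Hadamard space -/
def hadN {g : RMetric (EV n) M} (hn : 1 ≤ n) (h : NegCurvature g) (p : M) :
    H728.Had (H465.Mt (sys g (npc_of_neg h)) p) :=
  haveI : Nonempty (Fin n) := ⟨⟨0, hn⟩⟩
  haveI : Nontrivial (EV n) := inferInstance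
  H465.had (sys g (npc_of_neg h)) p (hc_kk h) (kk_pos h)

end Vale.Agent.P207.N3.H156
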