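import Vale.Agent.P207.N3.H566.ExpD
import Vale.Agent.P207.N3.H76.Geo
import Vale.Agent.P207.N3.H908.Fiber
import Vale.Agent.P207.N3.H156.HCI
import Vale.Agent.P207.N3.H465.XMet
import Vale.Agent.P207.Q.H892.Meas

/-!
# P207, line N3, R13a: the frame bundle of the universal cover of a closed three-manifold of
negative curvature is a `Geo`

`Xt g h m` = the orthonormal frames of the universal cover (model (A)), `Mt (sys g h) m` = the
universal cover.
-/

open scoped Manifold ContDiff ENNReal Topology
open Bundle MeasureTheory Set Filter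

noncomputable section

set_option maxSynthPendingDepth 3
set_option linter.unusedSectionVars false

namespace Vale.Agent.P207.N3.H156

open Vale.Agent.P255 (RMetric coefIn Gam Riem IsGeo Metric Npc ExpSys toMetric geo expg cc)
open Vale.Agent.P207 Vale.Agent.P207.Q
open H465 (Deck PB Mt toMt ofMt Xt)
open H566 (XF XM Exp lift)
open H908 (rotE rotX mo OE)

/-- the coordinates of a vector -/
def co {n : ℕ} (u : EV n) : Fin n → ℝ := fun i => u i

theorem co_smul {n : ℕ} (t : ℝ) (u : EV n) : co (t • u) = t • co u := rfl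

theorem mulVec_mo {n : ℕ} (R : OE n) (u : EV n) : (mo R).1.mulVec (co u) = co (R u) := by
  funext i
  change ∑ j, (mo R).1 i j * u j = R u i
  rw [H908.apply_eq]
  rfl

section Gen

variable {n : ℕ} {M : Type} [TopologicalSpace M] [ChartedSpace (EV n) M]
  [IsManifold 𝓘(ℝ, EV n) ∞ M] {g : RMetric (EV n) M} {A : Type} [TopologicalSpace A]
  {p : A → M} [Nonempty (Fr g)] [NeZero n] [CompactSpace M] [T2Space M]

theorem lift_rotE (hp : IsCoveringMap p) (R : OE n) (u : EV n) (x : XF g p) :
    lift hp (co u) (rotE R x) = rotE R (lift hp (co (R u)) x) := by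
  have h := H566.lift_rot hp (mo R) (co u) x
  rw [mulVec_mo] at h
  exact h

end Gen

section Gen2

variable {n : ℕ} {M : Type} [TopologicalSpace M] [ChartedSpace (EV n) M]
  [IsManifold 𝓘(ℝ, EV n) ∞ M] {g : RMetric (EV n) M}
  {p : EV n → M} [Nonempty (Fr g)] [NeZero n] [CompactSpace M] [T2Space M]

theorem Exp_rotE (hp : IsCoveringMap p) (R : OE n) (u : EV n) (x : XF g p) :
    Exp hp (rotE R x) u = Exp hp x (R u) := by
  have h := congrArg PB.q (lift_rotE hp R u x)
  exact h

/-- the frame flow of direction `v` -/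
def fl (hp : IsCoveringMap p) (v : EV n) (t : ℝ) (x : XF g p) : XF g p := lift hp (t • co v) x

theorem fl_zero (hp : IsCoveringMap p) (v : EV n) (x : XF g p) : fl hp v 0 x = x := by
  rw [fl, zero_smul, H566.lift_zero]

theorem fl_add (hp : IsCoveringMap p) (v : EV n) (s t : ℝ) (x : XF g p) :
    fl hp v (s + t) x = fl hp v s (fl hp v t x) := H566.lift_add hp (co v) s t x

theorem continuous_fl (hp : IsCoveringMap p) (v : EV n) :
    Continuous fun q : ℝ × XF g p => fl hp v q.1 q.2 := by
  have h1 : Continuous fun q : ℝ × XF g p => ((q.1 • co v, q.2) : (Fin n → ℝ) × XF g p) := by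
    fun_prop
  exact (H566.continuous_lift hp).comp h1

theorem fl_deck (hp : IsCoveringMap p) (v : EV n) (t : ℝ) (γ : Deck p) (x : XF g p) :
    fl hp v t (γ • x) = γ • fl hp v t x := H566.lift_deck hp γ (t • co v) x

theorem Exp_fl (hp : IsCoveringMap p) (v : EV n) (t s : ℝ) (x : XF g p) :
    Exp hp (fl hp v t x) (s • v) = Exp hp x ((t + s) • v) := by
  have h := congrArg PB.q (H566.lift_add hp (co v) s t x)
  rw [add_comm t s]
  exact h.symm

/-- the frame flow commutes with the rotations which fix the direction -/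
theorem rotE_fl (hp : IsCoveringMap p) {R : OE n} {v : EV n} {c : ℝ} (hR : R v = c • v)
    (t : ℝ) (x : XF g p) : fl hp v t (rotE R x) = rotE R (fl hp v (t * c) x) := by
  have h := lift_rotE hp R (t • v) x
  rw [map_smul, hR, smul_smul] at h
  exact h

end Gen2

variable {M : Type} [TopologicalSpace M] [ChartedSpace (EV 3) M]
  [IsManifold 𝓘(ℝ, EV 3) ∞ M] {g : RMetric (EV 3) M} [CompactSpace M] [T2Space M]
  [ConnectedSpace M] [Nonempty (Fr g)]

/-- the deck group of the universal cover -/
abbrev Dk (h : Npc (mt g)) (m : M) : Type := Deck ((sys g h).e m)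

theorem surj_e (h : Npc (mt g)) (m : M) : Function.Surjective ((sys g h).e m) :=
  Deck.surjective_of_cov ((sys g h).cov m)

variable (hN : NegCurvature g) (m : M)

/-- **the frame bundle of the universal cover** (model (A)) -/
def geoA : H76.Geo (Dk (npc_of_neg hN) m) (Xt g (npc_of_neg hN) m)
    (Mt (sys g (npc_of_neg hN)) m) where
  had := hadN (by norm_num) hN m
  nonempty := by
    obtain ⟨f, hf⟩ := H892.exists_frame g m
    exact ⟨PB.mk 0 f (((sys g (npc_of_neg hN)).zero m).trans hf.symm)⟩
  ft x := x.ft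
  ft_proper _ hK := Xt.isCompact_preimage_ft hK
  act R x := rotE R x
  act_one x := H908.rotE_one x
  act_mul R S x := H908.rotE_mul R S x
  act_cont R := H908.continuous_rotE_right R
  act_smul R γ x := H908.rotE_smul γ R x
  act_trans x y hxy := by
    obtain ⟨R, hR⟩ := H908.exists_rotE (x := x) (y := y) hxy
    exact ⟨R, hR.symm⟩
  E x u := toMt _ _ (Exp ((sys g (npc_of_neg hN)).cov m) x u)
  E_cont := (H465.continuous_toMt _ _).comp (H566.continuous_ExpM _ m)
  E_zero x := by rw [H566.Exp_zero]; rfl
  E_dist x u := H566.dd_Exp _ m x u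
  E_inj x := H566.Exp_injective _ m x
  E_surj x := H566.Exp_surjective _ m x
  E_act R x u := by rw [Exp_rotE]
  E_smul γ x u := by
    rw [H566.Exp_deck]
    rfl
  φ t x := fl ((sys g (npc_of_neg hN)).cov m) H76.e0 t x
  φ_zero x := fl_zero _ _ x
  φ_add s t x := fl_add _ _ s t x
  φ_cont := continuous_fl _ _
  φ_smul t γ x := fl_deck _ _ t γ x
  E_φ t x s := by rw [Exp_fl]
  φ_ext t a x := by
    rw [rotE_fl (c := 1) _ (by rw [H76.ext_e0, one_smul]), mul_one]
  φ_sg t x := by
    rw [rotE_fl (c := -1) _ (by rw [H76.sg_e0, neg_one_smul]), mul_neg_one, neg_neg]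
  cocompact := PB.exists_isCompact (F := Fr g) ((sys g (npc_of_neg hN)).cov m)
    Fr.continuous_pt (surj_e _ m)
  proper K hK := PB.finite_of_isCompact ((sys g (npc_of_neg hN)).cov m) hK
  free γ y h := Deck.free ((sys g (npc_of_neg hN)).cov m) (q := ofMt _ _ y) h

end Vale.Agent.P207.N3.H156
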