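import Vale.Agent.P207.N3.H156.GeoA
import Vale.Agent.P207.N3.H76.Dir

/-!
# P207, line N3: the fields of `Geo.Dir` over model (A) which need only the lifts
-/

open scoped Manifold ContDiff ENNReal Topology
open Bundle MeasureTheory Set Filter

noncomputable section

set_option maxSynthPendingDepth 3
set_option linter.unusedSectionVars false

namespace Vale.Agent.P207.N3.H156

open Vale.Agent.P255 (RMetric coefIn Gam Riem IsGeo Metric Npc ExpSys toMetric geo expg cc)
open Vale.Agent.P207 Vale.Agent.P207.Q Vale.Agent.P207.Q.Fl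
open H465 (Deck PB Mt toMt ofMt Xt homeoMt)
open H566 (XF XM Exp lift difX locDif_e sec_difX lift_plot smOn_Exp SmOn sm_coord)

variable {M : Type} [TopologicalSpace M] [ChartedSpace (EV 3) M]
  [IsManifold 𝓘(ℝ, EV 3) ∞ M] {g : RMetric (EV 3) M} [CompactSpace M] [T2Space M]
  [Nonempty (Fr g)]

section

variable (h : Npc (mt g)) (m : M)

/-- the coordinates of the universal cover -/
def jA : Mt (sys g h) m ≃ₜ EV 3 := (homeoMt (sys g h) m).symm

theorem jA_apply (y : Mt (sys g h) m) : jA h m y = ofMt (sys g h) m y := rfl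

/-- the frame transported along the radius `(0, u)` -/
def lfA (x : XM h m) (u : E2) : XM h m := lift ((sys g h).cov m) (co (H76.pk 0 u)) x

theorem q_lfA (x : XM h m) (u : E2) :
    (lfA h m x u).q = Exp ((sys g h).cov m) x (H76.pk 0 u) := rfl

theorem lfA_zero (x : XM h m) : lfA h m x 0 = x := by
  have h1 : co (H76.pk 0 (0 : E2)) = 0 := by
    funext i
    fin_cases i <;> rfl
  rw [lfA, h1, H566.lift_zero]

theorem lfA_deck (γ : Dk h m) (x : XM h m) (u : E2) :
    lfA h m (γ • x) u = γ • lfA h m x u := H566.lift_deck _ γ _ x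

theorem contDiff_pk0 : ContDiff ℝ ∞ fun u : E2 => H76.pk 0 u := by
  have h1 : ContDiff ℝ ∞ fun p : ℝ × E2 => H76.pk p.1 p.2 :=
    (LinearMap.toContinuousLinearMap H76.pkL).contDiff
  have h2 : ContDiff ℝ ∞ fun u : E2 => ((0 : ℝ), u) := contDiff_const.prodMk contDiff_id
  exact ContDiff.comp (g := fun p : ℝ × E2 => H76.pk p.1 p.2) h1 h2

theorem lfA_plot {E : Type} [NormedAddCommGroup E] [NormedSpace ℝ E] [FiniteDimensional ℝ E]
    {x : E → XM h m} {u : E → E2} {y : E} (hx : (difX g ((sys g h).e m)).At x y)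
    (hu : Sm u y) : (difX g ((sys g h).e m)).At (fun w => lfA h m (x w) (u w)) y := by
  have h1 : Sm (fun w => H76.pk 0 (u w)) y :=
    Sm.comp (f := fun u : E2 => H76.pk 0 u) (g := u) (Sm.of_contDiff contDiff_pk0 _) hu
  exact lift_plot (locDif_e h m) ((sys g h).cov m) hx (sm_coord h1)

theorem smOn_lfA : SmOn (difX g ((sys g h).e m)) (fun x (p : E2 × E3) =>
    Exp ((sys g h).cov m) (lfA h m x p.1) p.2) univ := by
  intro E _ _ _ x v y hx hv _
  have h1 : Sm (fun w => (v w).1) y := hv.fst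
  have h2 : Sm (fun w => (v w).2) y := hv.snd
  exact smOn_Exp (locDif_e h m) ((sys g h).cov m) (lfA_plot h m hx h1) h2 (mem_univ _)

/-- **field `lf_jc`** -/
theorem jc_lfA : JC (fun (x : XM h m) (p : E2 × E3) =>
    Exp ((sys g h).cov m) (lfA h m x p.1) p.2) univ :=
  SmOn.jc (sec_difX (locDif_e h m)) (smOn_lfA h m) isOpen_univ

/-- **field `E_der`** -/
theorem bijective_fderiv_Exp (x : XM h m) (u : EV 3) :
    Function.Bijective (fderiv ℝ (Exp ((sys g h).cov m) x) u) := by
  obtain ⟨L, hL⟩ := H566.Exp_equiv h m x u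
  rw [hL.fderiv]
  exact L.bijective

/-- **field `E_diff`** -/
theorem differentiable_Exp (x : XM h m) : Differentiable ℝ (Exp ((sys g h).cov m) x) :=
  (H566.contDiff_Exp h m x).differentiable (by simp)

/-- **field `diff_smul`** -/
theorem differentiable_deck (γ : Dk h m) : Differentiable ℝ fun q : EV 3 => γ • q :=
  (H566.contDiff_deck (locDif_e h m) γ).differentiable (by simp)

end

variable [ConnectedSpace M] (hN : NegCurvature g) (m : M)

/-- **`Geo.Dir` over model (A), from a field of directions** -/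
def dirA (ε : ℝ) (ε_pos : 0 < ε) (W : Xt g (npc_of_neg hN) m → E2 → E3)
    (W_norm : ∀ x, ∀ u ∈ Metric.ball (0 : E2) ε, ‖W x u‖ = 1)
    (W_jc : JC W (univ ×ˢ Metric.ball 0 ε))
    (W_near : ∀ x, ∀ u ∈ Metric.ball (0 : E2) ε, ∃ C, ∀ s : ℝ, s ≤ 0 → ∃ t : ℝ, t ≤ 0 ∧
      dist ((geoA hN m).E (lfA _ m x u) (t • W x u)) ((geoA hN m).E x (s • H76.e0)) ≤ C) :
    (geoA hN m).Dir (jA (npc_of_neg hN) m) where
  ε := ε
  ε_pos := ε_pos
  lf := lfA _ m
  ft_lf _ _ _ := rfl
  lf_jc := (jc_lfA _ m).mono (isOpen_univ.prod (Metric.isOpen_ball.prod isOpen_univ))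
    (subset_univ _)
  W := W
  W_norm := W_norm
  W_jc := W_jc
  W_near := W_near
  E_der x := bijective_fderiv_Exp _ m x 0
  E_diff x := differentiable_Exp _ m x 0
  diff_smul γ := differentiable_deck _ m γ

end Vale.Agent.P207.N3.H156
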